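import Vale.Agent.P109.ST288.Theta
import Vale.Agent.P109.SH.Top
import Vale.Agent.P109.H633.Glue

/-!
**Shadow lemma** (block S3 of P109), final form: comparison of weighted volumes of `f`-orbit sets
and `f'`-orbit sets.
-/

open MeasureTheory Set Metric
open scoped ENNReal InnerProductSpace
open Vale.Agent.P109.H633 (orb orb_zero orb_succ)

namespace Vale.Agent.P109.ST288

variable {E : Type*} [NormedAddCommGroup E] [InnerProductSpace ℝ E] [FiniteDimensional ℝ E]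

/-- The shadowing map with all its properties, from `Good`. -/
theorem exists_theta_good {n : ℕ} {K C₂ e₀ m : ℝ} (hK : 1 ≤ K) (hC : 1 ≤ C₂) (he : 0 ≤ e₀)
    (hsmall : 20 * ((Module.finrank ℝ E : ℝ) + 1) * ((n : ℝ) + 1) ^ 4 * K ^ 2 * C₂ * e₀ ≤ 1)
    (hm : 2 * ((n : ℝ) + 1) ^ 2 * K * e₀ < m) {f f' : ℕ → E → E} {G : Set E}
    (hG : ∀ z ∈ G, Hyp n f f' z e₀ C₂ m)
    (hgood : ∀ z ∈ G, S3.Good n (fun t => fderiv ℝ (f t) (orb f z t)) K) :
    ∃ (Θ : E → E) (L : E → (E →L[ℝ] E)), InjOn Θ G ∧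
      (∀ z ∈ G, ∀ t, t ≤ n → dist (orb f' (Θ z) t) (orb f z t) ≤ ((n : ℝ) + 1) ^ 2 * K * e₀) ∧
      (∀ z ∈ G, HasFDerivWithinAt Θ (L z) G z) ∧ ∀ z ∈ G, 3 / 4 ≤ |(L z).det| := by
  have hp : (1 : ℝ) ≤ (n : ℝ) + 1 := by
    have : (0 : ℝ) ≤ n := Nat.cast_nonneg n
    linarith
  have hd : (0 : ℝ) ≤ (Module.finrank ℝ E : ℝ) := Nat.cast_nonneg _
  set p : ℝ := (n : ℝ) + 1 with hpdef
  set d : ℝ := (Module.finrank ℝ E : ℝ) with hddef
  have hp0 : 0 < p := by linarith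
  have hK0 : 0 < K := by linarith
  have hC0 : 0 < C₂ := by linarith
  set κ : ℝ := p * K with hκdef
  have hκ0 : 0 < κ := by positivity
  set ρ : ℝ := p ^ 2 * K * e₀ with hρdef
  have hρ0 : 0 ≤ ρ := by positivity
  set X : ℝ := p ^ 3 * K ^ 2 * C₂ * e₀ with hX
  have hX0 : 0 ≤ X := by positivity
  have hXs : 20 * (d + 1) * p * X ≤ 1 := by
    calc 20 * (d + 1) * p * X = 20 * (d + 1) * p ^ 4 * K ^ 2 * C₂ * e₀ := by rw [hX]; ring
      _ ≤ 1 := hsmall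
  have hXp : 20 * p * X ≤ 1 := by
    have : 0 ≤ d * (p * X) := by positivity
    nlinarith
  have hX1 : 20 * X ≤ 1 := by
    have : X ≤ p * X := by nlinarith
    nlinarith
  -- the radius
  set r : ℝ := min m (1 / (4 * p * κ * C₂)) with hrdef
  have hρX : κ * C₂ * ρ = X := by rw [hκdef, hρdef, hX]; ring
  have hm0 : 0 < m := lt_of_le_of_lt (by positivity) hm
  have hr : 0 < r := lt_min hm0 (by positivity)
  have hrm : r ≤ m := min_le_left _ _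
  have hρr : 2 * ρ ≤ r := by
    refine le_min ?_ ?_
    · have : 2 * p ^ 2 * K * e₀ = 2 * ρ := by rw [hρdef]; ring
      linarith
    · rw [le_div_iff₀ (by positivity)]
      calc 2 * ρ * (4 * p * κ * C₂) = 8 * p * (κ * C₂ * ρ) := by ring
        _ = 8 * p * X := by rw [hρX]
        _ ≤ 1 := by nlinarith [mul_nonneg hp0.le hX0]
  have hκr : κ * (C₂ * r) ≤ 1 / (4 * p) := by
    have h1 : r ≤ 1 / (4 * p * κ * C₂) := min_le_right _ _
    calc κ * (C₂ * r) ≤ κ * (C₂ * (1 / (4 * p * κ * C₂))) := by gcongr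
      _ = 1 / (4 * p) := by field_simp
  have hκe : κ * e₀ ≤ X := by
    have h1 : (1 : ℝ) ≤ p ^ 2 * K * C₂ := by
      have h2 : (1 : ℝ) ≤ p ^ 2 := one_le_pow₀ hp
      have h3 : (1 : ℝ) ≤ p ^ 2 * K := one_le_mul_of_one_le_of_one_le h2 hK
      exact one_le_mul_of_one_le_of_one_le h3 hC
    calc κ * e₀ = κ * e₀ * 1 := by ring
      _ ≤ κ * e₀ * (p ^ 2 * K * C₂) := by gcongr
      _ = X := by rw [hκdef, hX]; ring
  have hXp' : X ≤ 1 / (20 * p) := by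
    rw [le_div_iff₀ (by positivity)]
    linarith
  have hsum : κ * (e₀ + C₂ * r) ≤ 3 / (10 * p) := by
    calc κ * (e₀ + C₂ * r) = κ * e₀ + κ * (C₂ * r) := by ring
      _ ≤ 1 / (20 * p) + 1 / (4 * p) := add_le_add (hκe.trans hXp') hκr
      _ = 3 / (10 * p) := by field_simp; norm_num
  have hκζ : κ * (e₀ + C₂ * r) ≤ 1 / 2 := by
    refine hsum.trans ?_
    rw [div_le_div_iff₀ (by positivity) (by norm_num)]
    nlinarith
  have hδ : κ * (n * e₀) + κ * (e₀ + C₂ * r) * ρ ≤ ρ := by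
    have h1 : κ * (e₀ + C₂ * r) * ρ ≤ 3 / (10 * p) * ρ := by gcongr
    have h2 : 3 / (10 * p) * ρ = 3 / 10 * (p * K * e₀) := by
      rw [hρdef]; field_simp
    have h3 : κ * (n * e₀) = ρ - p * K * e₀ := by
      have h4 : (n : ℝ) = p - 1 := by rw [hpdef]; ring
      rw [hκdef, hρdef, h4]; ring
    have h5 : 0 ≤ p * K * e₀ := by positivity
    rw [h3]
    linarith
  have hs : 2 * κ * C₂ * ρ < 1 := by
    calc 2 * κ * C₂ * ρ = 2 * (κ * C₂ * ρ) := by ring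
      _ = 2 * X := by rw [hρX]
      _ < 1 := by linarith
  have hHyp : ∀ z ∈ G, Hyp n f f' z e₀ C₂ r := by
    intro z hz
    have h := hG z hz
    have hsub : ∀ t, closedBall (orb f z t) r ⊆ closedBall (orb f z t) m := fun t =>
      closedBall_subset_closedBall hrm
    exact ⟨fun t ht x hx => h.df t ht x (hsub t hx), fun t ht x hx => h.df' t ht x (hsub t hx),
      fun t ht x hx => h.h0 t ht x (hsub t hx), fun t ht x hx => h.h1 t ht x (hsub t hx),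
      fun t ht x hx => h.h2 t ht x (hsub t hx)⟩
  -- the operators
  set Tc : E → (PiLp 2 (fun _ : Fin (n + 1) => E) →L[ℝ] PiLp 2 (fun _ : Fin n => E)) :=
    fun z => SH.Top n (fun t => fderiv ℝ (f t) (orb f z t)) with hTc
  have hTκ : ∀ z ∈ G, ∀ y, ‖y‖ ≤ κ * ‖ContinuousLinearMap.adjoint (Tc z) y‖ := fun z hz y =>
    SH.Top_kappa (hgood z hz) y
  obtain ⟨Θ, hinj, hdist, hder⟩ := exists_theta (n := n) (f := f) (f' := f') (G := G) (e₀ := e₀)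
    (C₂ := C₂) (r := r) (κ := κ) (ρ := ρ) hHyp
    (fun z => (Tc z : PiLp 2 (fun _ : Fin (n + 1) => E) →ₗ[ℝ] PiLp 2 (fun _ : Fin n => E)))
    (fun z _ x i => SH.Top_apply n _ x i) hκ0.le
    (fun z hz y => by rw [SH.adjoint_coe]; exact hTκ z hz y) he hC0.le hr hρ0 hρr hκζ hδ hs
  choose! L B hL1 hL2 hL3 using hder
  refine ⟨Θ, L, hinj, hdist, hL1, fun z hz => ?_⟩
  have hconst := H633.constants (n := n) (d := Module.finrank ℝ E) hK hC he hsmall (R := ρ)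
    (by rw [← hpdef]; nlinarith [mul_nonneg (mul_nonneg (sq_nonneg p) hK0.le) he])
  rw [← hpdef, ← hκdef] at hconst
  obtain ⟨hc1, hc2, hc3⟩ := hconst
  have hlin : H633.LinData n κ (e₀ + C₂ * ρ) (κ * C₂ * ρ) (L z) := by
    refine ⟨fun t => fderiv ℝ (f t) (orb f z t), fun t => fderiv ℝ (f' t) (orb f' (Θ z) t),
      Tc z, SH.Top n (fun t => fderiv ℝ (f' t) (orb f' (Θ z) t)), Aop n f z, Aop n f' (Θ z), B z,
      fun x i => SH.Top_apply n _ x i, fun x i => SH.Top_apply n _ x i, ?_, ?_, ?_, ?_,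
      hTκ z hz, ?_, hL3 z hz, hL2 z hz⟩
    · intro u
      exact T_Aop (Tc z : PiLp 2 (fun _ : Fin (n + 1) => E) →ₗ[ℝ] PiLp 2 (fun _ : Fin n => E))
        (fun x i => SH.Top_apply n _ x i) u
    · intro u
      exact T_Aop (SH.Top n (fun t => fderiv ℝ (f' t) (orb f' (Θ z) t)) :
        PiLp 2 (fun _ : Fin (n + 1) => E) →ₗ[ℝ] PiLp 2 (fun _ : Fin n => E))
        (fun x i => SH.Top_apply n _ x i) u
    · intro u
      rw [Aop_apply]; rfl
    · intro u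
      rw [Aop_apply]; rfl
    · refine SH.norm_Top_sub_le (by positivity) fun t ht => ?_
      have h := hHyp z hz
      have hdt := hdist z hz t ht.le
      have hmem : orb f' (Θ z) t ∈ closedBall (orb f z t) r := by
        rw [mem_closedBall]
        linarith
      have e1 := h.h1 t ht _ hmem
      have e2 := h.lip ht (mem_closedBall_self hr.le) hmem
      have e3 : ‖orb f' (Θ z) t - orb f z t‖ ≤ ρ := by rw [← dist_eq_norm]; exact hdt
      calc ‖fderiv ℝ (f' t) (orb f' (Θ z) t) - fderiv ℝ (f t) (orb f z t)‖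
          ≤ ‖fderiv ℝ (f' t) (orb f' (Θ z) t) - fderiv ℝ (f t) (orb f' (Θ z) t)‖ +
            ‖fderiv ℝ (f t) (orb f' (Θ z) t) - fderiv ℝ (f t) (orb f z t)‖ :=
            norm_sub_le_norm_sub_add_norm_sub _ _ _
        _ ≤ e₀ + C₂ * ρ := add_le_add e1 (e2.trans (by gcongr))
  refine hlin.det_ge (by positivity) (by positivity) hκ0.le (by linarith) (by linarith) hc1

/-- **Shadow lemma**, balls-only version. -/
theorem shadow_balls [MeasurableSpace E] [BorelSpace E] (μ : Measure E) [μ.IsAddHaarMeasure]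
    {n : ℕ} {K C₂ e₀ m : ℝ} (hK : 1 ≤ K) (hC : 1 ≤ C₂) (he : 0 ≤ e₀)
    (hsmall : 20 * ((Module.finrank ℝ E : ℝ) + 1) * ((n : ℝ) + 1) ^ 4 * K ^ 2 * C₂ * e₀ ≤ 1)
    (hm : 2 * ((n : ℝ) + 1) ^ 2 * K * e₀ < m) (f f' : ℕ → E → E) (A B : Set E)
    (hA : MeasurableSet A) (hG : ∀ z ∈ A, Hyp n f f' z e₀ C₂ m)
    (hgood : ∀ z ∈ A, S3.Good n (fun t => fderiv ℝ (f t) (orb f z t)) K)
    (w w' : E → ℝ≥0∞)
    (hw : ∀ z ∈ A, ∀ z', dist z' z ≤ 2 * ((n : ℝ) + 1) ^ 2 * K * e₀ → w z ≤ (3 / 2) * w' z')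
    (hB : ∀ z ∈ A, ∀ z', (∀ t, t ≤ n →
      dist (orb f' z' t) (orb f z t) ≤ 2 * ((n : ℝ) + 1) ^ 2 * K * e₀) → z' ∈ B) :
    ∫⁻ z in A, w z ∂μ ≤ 2 * ∫⁻ z in B, w' z ∂μ := by
  obtain ⟨Θ, L, h1, h2, h3, h4⟩ := exists_theta_good hK hC he hsmall hm hG hgood
  have hR : ((n : ℝ) + 1) ^ 2 * K * e₀ ≤ 2 * ((n : ℝ) + 1) ^ 2 * K * e₀ := by
    have : 0 ≤ ((n : ℝ) + 1) ^ 2 * K * e₀ := by positivity
    linarith
  exact H633.shadow_lintegral μ n f f' _ A B hA w w' hw Θ L h1 h3 h4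
    (fun z hz t ht => (h2 z hz t ht).trans hR) hB

/-- **Shadow lemma**, open domains version (statement of helper633, note 3943). -/
theorem shadow [MeasurableSpace E] [BorelSpace E] (μ : Measure E) [μ.IsAddHaarMeasure]
    {n : ℕ} {K C₂ e₀ m : ℝ} (hK : 1 ≤ K) (hC : 1 ≤ C₂) (he : 0 ≤ e₀)
    (hsmall : 20 * ((Module.finrank ℝ E : ℝ) + 1) * ((n : ℝ) + 1) ^ 4 * K ^ 2 * C₂ * e₀ ≤ 1)
    (hm : 2 * ((n : ℝ) + 1) ^ 2 * K * e₀ < m)
    (Ω : ℕ → Set E) (hΩ : ∀ t < n, IsOpen (Ω t)) (f f' : ℕ → E → E)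
    (hf : ∀ t < n, ContDiffOn ℝ 2 (f t) (Ω t)) (hf' : ∀ t < n, ContDiffOn ℝ 2 (f' t) (Ω t))
    (hf2 : ∀ t < n, ∀ x ∈ Ω t, ‖iteratedFDeriv ℝ 2 (f t) x‖ ≤ C₂)
    (h0 : ∀ t < n, ∀ x ∈ Ω t, ‖f' t x - f t x‖ ≤ e₀)
    (h1 : ∀ t < n, ∀ x ∈ Ω t, ‖fderiv ℝ (f' t) x - fderiv ℝ (f t) x‖ ≤ e₀)
    (A B : Set E) (hA : MeasurableSet A)
    (hball : ∀ z ∈ A, ∀ t < n, Metric.closedBall (orb f z t) m ⊆ Ω t)
    (hgood : ∀ z ∈ A, S3.Good n (fun t => fderiv ℝ (f t) (orb f z t)) K)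
    (w w' : E → ℝ≥0∞)
    (hw : ∀ z ∈ A, ∀ z', dist z' z ≤ 2 * ((n : ℝ) + 1) ^ 2 * K * e₀ → w z ≤ (3 / 2) * w' z')
    (hB : ∀ z ∈ A, ∀ z', (∀ t ≤ n,
      dist (orb f' z' t) (orb f z t) ≤ 2 * ((n : ℝ) + 1) ^ 2 * K * e₀) → z' ∈ B) :
    ∫⁻ z in A, w z ∂μ ≤ 2 * ∫⁻ z in B, w' z ∂μ := by
  refine shadow_balls μ hK hC he hsmall hm f f' A B hA (fun z hz => ?_) hgood w w' hw hB
  refine ⟨fun t ht x hx => ?_, fun t ht x hx => ?_, fun t ht x hx => ?_, fun t ht x hx => ?_,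
    fun t ht x hx => ?_⟩
  · have hx' := hball z hz t ht hx
    exact (hf t ht x hx').contDiffAt ((hΩ t ht).mem_nhds hx')
  · have hx' := hball z hz t ht hx
    exact ((hf' t ht x hx').contDiffAt ((hΩ t ht).mem_nhds hx')).of_le (by norm_num)
  · exact h0 t ht x (hball z hz t ht hx)
  · exact h1 t ht x (hball z hz t ht hx)
  · have h2 := hf2 t ht x (hball z hz t ht hx)
    have h3 : ‖fderiv ℝ (fderiv ℝ (f t)) x‖ = ‖iteratedFDeriv ℝ 2 (f t) x‖ := by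
      rw [← norm_iteratedFDeriv_one, norm_iteratedFDeriv_fderiv]
    rw [h3]
    exact h2

end Vale.Agent.P109.ST288
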