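import Mathlib.Analysis.Calculus.ImplicitFunction.ProdDomain
import Mathlib.Analysis.InnerProductSpace.Calculus
import Mathlib.Analysis.InnerProductSpace.PiL2

/-!
Static shadow lemma, step (2), abstract form: the solution `z'` of
`A(z)† (Z'(z') - Z(z)) = 0` is a strictly differentiable function of `z`.
-/

open scoped InnerProductSpace Topology
open Set Filter Module

namespace Vale.Agent.P109.ST288

variable {E V : Type*}
  [NormedAddCommGroup E] [InnerProductSpace ℝ E] [FiniteDimensional ℝ E]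
  [NormedAddCommGroup V] [InnerProductSpace ℝ V]

theorem exists_implicit (Z Z' : E → V) (A : E → (E →L[ℝ] V)) (z₀ z₀' : E)
    (Y : E →L[ℝ] (E →L[ℝ] V)) (A' : E →L[ℝ] V)
    (hZ : HasStrictFDerivAt Z (A z₀) z₀) (hZ' : HasStrictFDerivAt Z' A' z₀')
    (hA : HasStrictFDerivAt A Y z₀)
    (hperp : ∀ v, ⟪A z₀ v, Z' z₀' - Z z₀⟫_ℝ = 0)
    (hinj : ∀ u, (∀ v, ⟪A z₀ v, A' u⟫_ℝ = 0) → u = 0) :
    ∃ (ψ : E → E) (L : E →L[ℝ] E), HasStrictFDerivAt ψ L z₀ ∧ ψ z₀ = z₀' ∧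
      (∀ᶠ z in 𝓝 z₀, ∀ v, ⟪A z v, Z' (ψ z) - Z z⟫_ℝ = 0) ∧
      (∀ u v, ⟪A z₀ v, A' (L u)⟫_ℝ = ⟪A z₀ v, A z₀ u⟫_ℝ - ⟪Y u v, Z' z₀' - Z z₀⟫_ℝ) := by
  classical
  set b := stdOrthonormalBasis ℝ E with hb
  set w₀ : V := Z' z₀' - Z z₀ with hw₀
  -- the equations
  let Φ : E × E → (Fin (finrank ℝ E) → ℝ) := fun p i => ⟪A p.1 (b i), Z' p.2 - Z p.1⟫_ℝ
  let dA : Fin (finrank ℝ E) → (E × E →L[ℝ] V) := fun i =>
    (ContinuousLinearMap.apply ℝ V (b i)).comp (Y.comp (ContinuousLinearMap.fst ℝ E E))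
  let dW : E × E →L[ℝ] V :=
    A'.comp (ContinuousLinearMap.snd ℝ E E) - (A z₀).comp (ContinuousLinearMap.fst ℝ E E)
  let Φ' : E × E →L[ℝ] (Fin (finrank ℝ E) → ℝ) := ContinuousLinearMap.pi fun i =>
    (fderivInnerCLM ℝ (A z₀ (b i), w₀)).comp ((dA i).prod dW)
  have hΦ : HasStrictFDerivAt Φ Φ' (z₀, z₀') := by
    refine hasStrictFDerivAt_pi.2 fun i => ?_
    have h1 : HasStrictFDerivAt (fun p : E × E => A p.1 (b i)) (dA i) (z₀, z₀') := by
      have h2 : HasStrictFDerivAt (fun p : E × E => A p.1)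
          (Y.comp (ContinuousLinearMap.fst ℝ E E)) (z₀, z₀') :=
        HasStrictFDerivAt.comp (z₀, z₀') (f := Prod.fst) hA hasStrictFDerivAt_fst
      exact (ContinuousLinearMap.apply ℝ V (b i)).hasStrictFDerivAt.comp (z₀, z₀') h2
    have h3 : HasStrictFDerivAt (fun p : E × E => Z' p.2 - Z p.1) dW (z₀, z₀') := by
      refine HasStrictFDerivAt.sub ?_ ?_
      · exact HasStrictFDerivAt.comp (z₀, z₀') (f := Prod.snd) hZ' hasStrictFDerivAt_snd
      · exact HasStrictFDerivAt.comp (z₀, z₀') (f := Prod.fst) hZ hasStrictFDerivAt_fst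
    exact h1.inner ℝ h3
  have hΦ'ap : ∀ p i, Φ' p i = ⟪A z₀ (b i), A' p.2 - A z₀ p.1⟫_ℝ + ⟪Y p.1 (b i), w₀⟫_ℝ := by
    intro p i
    rfl
  have hinr : (Φ' ∘L .inr ℝ E E).IsInvertible := by
    have hinj' : Function.Injective (Φ' ∘L .inr ℝ E E : E →L[ℝ] (Fin (finrank ℝ E) → ℝ)).toLinearMap := by
      rw [← LinearMap.ker_eq_bot, LinearMap.ker_eq_bot']
      intro u hu
      apply hinj
      intro v
      have h1 : ∀ i, ⟪A z₀ (b i), A' u⟫_ℝ = 0 := by
        intro i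
        have h2 := congrFun hu i
        have h3 : Φ' ((0 : E), u) i = 0 := h2
        rw [hΦ'ap] at h3
        simpa using h3
      rw [← b.sum_repr v, map_sum, sum_inner]
      refine Finset.sum_eq_zero fun i _ => ?_
      rw [map_smul, inner_smul_left, h1, mul_zero]
    let e : E ≃ₗ[ℝ] (Fin (finrank ℝ E) → ℝ) := LinearMap.linearEquivOfInjective _ hinj' (by simp)
    refine ⟨e.toContinuousLinearEquiv, ?_⟩
    ext u i
    rfl
  set ψ := hΦ.implicitFunctionOfProdDomain hinr with hψ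
  set L : E →L[ℝ] E := -(Φ' ∘L .inr ℝ E E).inverse ∘L (Φ' ∘L .inl ℝ E E) with hL
  have hψd : HasStrictFDerivAt ψ L z₀ := hΦ.hasStrictFDerivAt_implicitFunctionOfProdDomain hinr
  have hψ0 : ψ z₀ = z₀' :=
    (hΦ.eventually_apply_eq_iff_implicitFunctionOfProdDomain hinr).self_of_nhds.mp rfl
  have hΦ0 : Φ (z₀, z₀') = 0 := by
    funext i
    exact hperp (b i)
  refine ⟨ψ, L, hψd, hψ0, ?_, ?_⟩
  · have h1 := hΦ.eventually_apply_implicitFunctionOfProdDomain hinr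
    filter_upwards [h1] with z hz v
    rw [hΦ0] at hz
    have h2 : ∀ i, ⟪A z (b i), Z' (ψ z) - Z z⟫_ℝ = 0 := fun i => congrFun hz i
    rw [← b.sum_repr v, map_sum, sum_inner]
    refine Finset.sum_eq_zero fun i _ => ?_
    rw [map_smul, inner_smul_left, h2, mul_zero]
  · intro u v
    have h1 : (Φ' ∘L .inr ℝ E E) (L u) = -((Φ' ∘L .inl ℝ E E) u) := by
      have h2 : L u = -((Φ' ∘L .inr ℝ E E).inverse ((Φ' ∘L .inl ℝ E E) u)) := rfl
      rw [h2, map_neg, hinr.self_apply_inverse]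
    have h3 : ∀ i, ⟪A z₀ (b i), A' (L u)⟫_ℝ = ⟪A z₀ (b i), A z₀ u⟫_ℝ - ⟪Y u (b i), w₀⟫_ℝ := by
      intro i
      have h4 := congrFun h1 i
      have h5 : Φ' ((0 : E), L u) i = -(Φ' (u, (0 : E)) i) := h4
      rw [hΦ'ap, hΦ'ap] at h5
      simp only [map_zero, sub_zero, zero_sub, inner_neg_right, zero_apply,
        inner_zero_left, add_zero] at h5
      rw [h5]; ring
    have hv : v = ∑ i, (b.repr v i) • b i := (b.sum_repr v).symm
    rw [hv]
    simp only [map_sum, map_smul, sum_inner, inner_smul_left, h3]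
    rw [← Finset.sum_sub_distrib]
    refine Finset.sum_congr rfl fun i _ => ?_
    ring

end Vale.Agent.P109.ST288
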