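import Vale.Agent.P109.H633.Change
import Mathlib.Analysis.Calculus.ContDiff.WithLp
import Mathlib.Analysis.Calculus.FDeriv.WithLp

/-!
Static shadow lemma: calculus of the orbit map `z ↦ (orb f z t)_{t ≤ n}`.
-/

open scoped InnerProductSpace Topology
open Set Filter
open Vale.Agent.P109.H633 (orb orb_zero orb_succ)

namespace Vale.Agent.P109.ST288

section general

variable {E : Type*} [NormedAddCommGroup E] [NormedSpace ℝ E]

/-- derivative of `z ↦ orb f z t` -/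
noncomputable def dorb (f : ℕ → E → E) (z : E) : ℕ → (E →L[ℝ] E)
  | 0 => ContinuousLinearMap.id ℝ E
  | t + 1 => (fderiv ℝ (f t) (orb f z t)).comp (dorb f z t)

/-- second derivative of `z ↦ orb f z t` -/
noncomputable def yorb (f : ℕ → E → E) (z : E) : ℕ → (E →L[ℝ] E →L[ℝ] E)
  | 0 => 0
  | t + 1 => (ContinuousLinearMap.compL ℝ E E E (fderiv ℝ (f t) (orb f z t))).comp (yorb f z t) +
      ((ContinuousLinearMap.compL ℝ E E E).flip (dorb f z t)).comp
        ((fderiv ℝ (fderiv ℝ (f t)) (orb f z t)).comp (dorb f z t))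

theorem dorb_succ_apply (f : ℕ → E → E) (z : E) (t : ℕ) (u : E) :
    dorb f z (t + 1) u = fderiv ℝ (f t) (orb f z t) (dorb f z t u) := rfl

theorem yorb_succ_apply (f : ℕ → E → E) (z : E) (t : ℕ) (u v : E) :
    yorb f z (t + 1) u v = fderiv ℝ (f t) (orb f z t) (yorb f z t u v) +
      fderiv ℝ (fderiv ℝ (f t)) (orb f z t) (dorb f z t u) (dorb f z t v) := rfl

theorem hasStrictFDerivAt_orb {n : ℕ} {f : ℕ → E → E} {z : E}
    (hf : ∀ t, t < n → HasStrictFDerivAt (f t) (fderiv ℝ (f t) (orb f z t)) (orb f z t)) :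
    ∀ t, t ≤ n → HasStrictFDerivAt (fun x => orb f x t) (dorb f z t) z := by
  intro t
  induction t with
  | zero => intro _; exact hasStrictFDerivAt_id z
  | succ t ih =>
    intro ht
    exact HasStrictFDerivAt.comp z (hf t (by omega)) (ih (by omega))

theorem hasStrictFDerivAt_dorb {n : ℕ} {f : ℕ → E → E} {z : E}
    (hf : ∀ t, t < n → HasStrictFDerivAt (f t) (fderiv ℝ (f t) (orb f z t)) (orb f z t))
    (hf2 : ∀ t, t < n → HasStrictFDerivAt (fderiv ℝ (f t))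
      (fderiv ℝ (fderiv ℝ (f t)) (orb f z t)) (orb f z t)) :
    ∀ t, t ≤ n → HasStrictFDerivAt (fun x => dorb f x t) (yorb f z t) z := by
  intro t
  induction t with
  | zero => intro _; exact hasStrictFDerivAt_const _ z
  | succ t ih =>
    intro ht
    have h1 : HasStrictFDerivAt (fun x => fderiv ℝ (f t) (orb f x t))
        ((fderiv ℝ (fderiv ℝ (f t)) (orb f z t)).comp (dorb f z t)) z :=
      HasStrictFDerivAt.comp z (hf2 t (by omega)) (hasStrictFDerivAt_orb hf t (by omega))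
    exact h1.clm_comp (ih (by omega))

/-- the orbit as a vector -/
def Zorb (n : ℕ) (f : ℕ → E → E) (z : E) : PiLp 2 (fun _ : Fin (n + 1) => E) :=
  WithLp.toLp 2 (fun t => orb f z t)

omit [NormedAddCommGroup E] [NormedSpace ℝ E] in
theorem Zorb_apply (n : ℕ) (f : ℕ → E → E) (z : E) (t : Fin (n + 1)) :
    Zorb n f z t = orb f z t := rfl

/-- inclusion of the `t`-th factor -/
noncomputable def inc (n : ℕ) (t : Fin (n + 1)) : E →L[ℝ] PiLp 2 (fun _ : Fin (n + 1) => E) :=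
  ((PiLp.continuousLinearEquiv 2 ℝ (fun _ : Fin (n + 1) => E)).symm :
    (Fin (n + 1) → E) →L[ℝ] PiLp 2 (fun _ : Fin (n + 1) => E)).comp
    (ContinuousLinearMap.single ℝ (fun _ : Fin (n + 1) => E) t)

theorem inc_apply (n : ℕ) (t s : Fin (n + 1)) (x : E) :
    inc n t x s = if s = t then x else 0 := by
  change (Pi.single t x : Fin (n + 1) → E) s = _
  rw [Pi.single_apply]

/-- derivative of `Zorb` -/
noncomputable def Aop (n : ℕ) (f : ℕ → E → E) (z : E) :
    E →L[ℝ] PiLp 2 (fun _ : Fin (n + 1) => E) :=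
  ∑ t : Fin (n + 1), (inc n t).comp (dorb f z t)

theorem Aop_apply (n : ℕ) (f : ℕ → E → E) (z u : E) (s : Fin (n + 1)) :
    Aop n f z u s = dorb f z s u := by
  simp [Aop, inc_apply]

/-- derivative of `Aop` -/
noncomputable def Yop (n : ℕ) (f : ℕ → E → E) (z : E) :
    E →L[ℝ] E →L[ℝ] PiLp 2 (fun _ : Fin (n + 1) => E) :=
  ∑ t : Fin (n + 1), (ContinuousLinearMap.compL ℝ E E
    (PiLp 2 (fun _ : Fin (n + 1) => E)) (inc n t)).comp (yorb f z t)

theorem Yop_apply (n : ℕ) (f : ℕ → E → E) (z u v : E) (s : Fin (n + 1)) :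
    Yop n f z u v s = yorb f z s u v := by
  simp [Yop, inc_apply]

theorem hasStrictFDerivAt_Zorb {n : ℕ} {f : ℕ → E → E} {z : E}
    (hf : ∀ t, t < n → HasStrictFDerivAt (f t) (fderiv ℝ (f t) (orb f z t)) (orb f z t)) :
    HasStrictFDerivAt (Zorb n f) (Aop n f z) z := by
  refine (hasStrictFDerivAt_piLp 2).2 fun t => ?_
  have h1 := hasStrictFDerivAt_orb hf t (by omega)
  have h2 : (PiLp.proj 2 (fun _ : Fin (n + 1) => E) t : _ →L[ℝ] E).comp (Aop n f z)
      = dorb f z t := by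
    ext u
    exact Aop_apply n f z u t
  rw [h2]
  exact h1

theorem hasStrictFDerivAt_Aop {n : ℕ} {f : ℕ → E → E} {z : E}
    (hf : ∀ t, t < n → HasStrictFDerivAt (f t) (fderiv ℝ (f t) (orb f z t)) (orb f z t))
    (hf2 : ∀ t, t < n → HasStrictFDerivAt (fderiv ℝ (f t))
      (fderiv ℝ (fderiv ℝ (f t)) (orb f z t)) (orb f z t)) :
    HasStrictFDerivAt (Aop n f) (Yop n f z) z := by
  have h1 : Aop n f = fun x => ∑ t : Fin (n + 1), (inc n t).comp (dorb f x t) := rfl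
  rw [h1]
  refine HasStrictFDerivAt.fun_sum fun t _ => ?_
  exact (ContinuousLinearMap.compL ℝ E E
    (PiLp 2 (fun _ : Fin (n + 1) => E)) (inc n t)).hasStrictFDerivAt.comp z
    (hasStrictFDerivAt_dorb hf hf2 t (by omega))

omit [NormedSpace ℝ E] in
/-- coordinatewise bound -/
theorem norm_le_of_coord {n : ℕ} (y : PiLp 2 (fun _ : Fin n => E))
    (x : PiLp 2 (fun _ : Fin (n + 1) => E)) {c : ℝ} (hc : 0 ≤ c)
    (h : ∀ i : Fin n, ‖y i‖ ≤ c * ‖x i.castSucc‖) : ‖y‖ ≤ c * ‖x‖ := by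
  have h1 : ‖y‖ ^ 2 ≤ (c * ‖x‖) ^ 2 := by
    rw [mul_pow, PiLp.norm_sq_eq_of_L2, PiLp.norm_sq_eq_of_L2, Fin.sum_univ_castSucc]
    calc ∑ i : Fin n, ‖y i‖ ^ 2 ≤ ∑ i : Fin n, c ^ 2 * ‖x i.castSucc‖ ^ 2 := by
          refine Finset.sum_le_sum fun i _ => ?_
          rw [← mul_pow]
          exact pow_le_pow_left₀ (norm_nonneg _) (h i) 2
      _ = c ^ 2 * ∑ i : Fin n, ‖x i.castSucc‖ ^ 2 := by rw [Finset.mul_sum]
      _ ≤ c ^ 2 * (∑ i : Fin n, ‖x i.castSucc‖ ^ 2 + ‖x (Fin.last n)‖ ^ 2) := by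
          gcongr
          exact le_add_of_nonneg_right (sq_nonneg _)
  exact le_of_sq_le_sq h1 (by positivity)

omit [NormedSpace ℝ E] in
/-- uniform coordinatewise bound -/
theorem norm_le_of_coord_const {n : ℕ} (y : PiLp 2 (fun _ : Fin n => E)) {c : ℝ} (hc : 0 ≤ c)
    (h : ∀ i : Fin n, ‖y i‖ ≤ c) : ‖y‖ ≤ n * c := by
  have h1 : ‖y‖ ^ 2 ≤ (n * c) ^ 2 := by
    rw [PiLp.norm_sq_eq_of_L2]
    calc ∑ i : Fin n, ‖y i‖ ^ 2 ≤ ∑ i : Fin n, c ^ 2 := by
          refine Finset.sum_le_sum fun i _ => ?_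
          exact pow_le_pow_left₀ (norm_nonneg _) (h i) 2
      _ = n * c ^ 2 := by simp
      _ ≤ (n * c) ^ 2 := by
          have h2 : (n : ℝ) ≤ (n : ℝ) ^ 2 := by
            exact_mod_cast Nat.le_self_pow two_ne_zero n
          rw [mul_pow]
          gcongr
  exact le_of_sq_le_sq h1 (by positivity)

end general

end Vale.Agent.P109.ST288
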