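import Vale.Agent.P109.ST288.Fixed
import Vale.Agent.P109.ST288.Implicit
import Vale.Agent.P109.ST288.Orbit
import Vale.Agent.P109.SH.Block
import Mathlib.Analysis.Calculus.MeanValue
import Mathlib.Analysis.Calculus.ContDiff.RCLike

/-!
Static shadow lemma: the shadowing map `Θ`, its injectivity and its derivative.
-/

open scoped InnerProductSpace Topology
open Set Filter Metric
open Vale.Agent.P109.H633 (orb orb_zero orb_succ)

namespace Vale.Agent.P109.ST288

set_option linter.unusedSectionVars false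

variable {E : Type*} [NormedAddCommGroup E] [InnerProductSpace ℝ E] [FiniteDimensional ℝ E]

/-- pointwise hypotheses along the `f`-orbit of `z` -/
structure Hyp (n : ℕ) (f f' : ℕ → E → E) (z : E) (e₀ C₂ r : ℝ) : Prop where
  df : ∀ t, t < n → ∀ x ∈ closedBall (orb f z t) r, ContDiffAt ℝ 2 (f t) x
  df' : ∀ t, t < n → ∀ x ∈ closedBall (orb f z t) r, ContDiffAt ℝ 1 (f' t) x
  h0 : ∀ t, t < n → ∀ x ∈ closedBall (orb f z t) r, ‖f' t x - f t x‖ ≤ e₀
  h1 : ∀ t, t < n → ∀ x ∈ closedBall (orb f z t) r, ‖fderiv ℝ (f' t) x - fderiv ℝ (f t) x‖ ≤ e₀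
  h2 : ∀ t, t < n → ∀ x ∈ closedBall (orb f z t) r, ‖fderiv ℝ (fderiv ℝ (f t)) x‖ ≤ C₂

namespace Hyp

variable {n : ℕ} {f f' : ℕ → E → E} {z : E} {e₀ C₂ r : ℝ}

theorem lip (h : Hyp n f f' z e₀ C₂ r) {t : ℕ} (ht : t < n) {x y : E}
    (hx : x ∈ closedBall (orb f z t) r) (hy : y ∈ closedBall (orb f z t) r) :
    ‖fderiv ℝ (f t) y - fderiv ℝ (f t) x‖ ≤ C₂ * ‖y - x‖ := by
  refine Convex.norm_image_sub_le_of_norm_fderiv_le (𝕜 := ℝ) (fun p hp => ?_) (h.h2 t ht)
    (convex_closedBall _ _) hx hy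
  exact ((h.df t ht p hp).fderiv_right (m := 1) (by norm_num)).differentiableAt (by norm_num)

/-- quadratic error of `f` -/
theorem quad (h : Hyp n f f' z e₀ C₂ r) (hC : 0 ≤ C₂) {t : ℕ} (ht : t < n) {y : E}
    (hy : y ∈ closedBall (orb f z t) r) :
    ‖f t y - f t (orb f z t) - fderiv ℝ (f t) (orb f z t) (y - orb f z t)‖
      ≤ C₂ * ‖y - orb f z t‖ ^ 2 := by
  have hr : dist y (orb f z t) ≤ r := hy
  have hsub : closedBall (orb f z t) (dist y (orb f z t)) ⊆ closedBall (orb f z t) r :=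
    closedBall_subset_closedBall hr
  have h1 := Convex.norm_image_sub_le_of_norm_fderiv_le' (𝕜 := ℝ) (f := f t)
    (φ := fderiv ℝ (f t) (orb f z t)) (C := C₂ * dist y (orb f z t))
    (s := closedBall (orb f z t) (dist y (orb f z t))) (x := orb f z t) (y := y)
    (fun p hp => (h.df t ht p (hsub hp)).differentiableAt (by norm_num))
    (fun p hp => ?_) (convex_closedBall _ _) (mem_closedBall_self dist_nonneg)
    (by simp)
  · refine h1.trans (le_of_eq ?_)
    rw [dist_eq_norm]; ring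
  · refine (h.lip ht (mem_closedBall_self (dist_nonneg.trans hr)) (hsub hp)).trans ?_
    have : ‖p - orb f z t‖ ≤ dist y (orb f z t) := by
      rw [← dist_eq_norm]; exact hp
    gcongr

theorem err (h : Hyp n f f' z e₀ C₂ r) (hC : 0 ≤ C₂) (hr : 0 ≤ r) {t : ℕ} (ht : t < n) {x y : E}
    (hx : x ∈ closedBall (orb f z t) r) (hy : y ∈ closedBall (orb f z t) r) :
    ‖f' t y - f' t x - fderiv ℝ (f t) (orb f z t) (y - x)‖ ≤ (e₀ + C₂ * r) * ‖y - x‖ := by
  refine Convex.norm_image_sub_le_of_norm_fderiv_le' (𝕜 := ℝ) (f := f' t)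
    (φ := fderiv ℝ (f t) (orb f z t)) (s := closedBall (orb f z t) r)
    (fun p hp => (h.df' t ht p hp).differentiableAt (by norm_num))
    (fun p hp => ?_) (convex_closedBall _ _) hx hy
  have e1 := h.h1 t ht p hp
  have e2 := h.lip ht (mem_closedBall_self hr) hp
  have e3 : ‖p - orb f z t‖ ≤ r := by rw [← dist_eq_norm]; exact hp
  calc ‖fderiv ℝ (f' t) p - fderiv ℝ (f t) (orb f z t)‖
      ≤ ‖fderiv ℝ (f' t) p - fderiv ℝ (f t) p‖ + ‖fderiv ℝ (f t) p - fderiv ℝ (f t) (orb f z t)‖ :=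
        norm_sub_le_norm_sub_add_norm_sub _ _ _
    _ ≤ e₀ + C₂ * r := add_le_add e1 (e2.trans (by gcongr))

theorem strict (h : Hyp n f f' z e₀ C₂ r) (hr : 0 ≤ r) {t : ℕ} (ht : t < n) :
    HasStrictFDerivAt (f t) (fderiv ℝ (f t) (orb f z t)) (orb f z t) :=
  (h.df t ht _ (mem_closedBall_self hr)).hasStrictFDerivAt (by norm_num)

theorem strict2 (h : Hyp n f f' z e₀ C₂ r) (hr : 0 ≤ r) {t : ℕ} (ht : t < n) :
    HasStrictFDerivAt (fderiv ℝ (f t)) (fderiv ℝ (fderiv ℝ (f t)) (orb f z t)) (orb f z t) :=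
  ((h.df t ht _ (mem_closedBall_self hr)).fderiv_right (m := 1) (by norm_num)).hasStrictFDerivAt
    (by norm_num)

end Hyp

/-- the nonlinearity -/
noncomputable def Nop (n : ℕ) (f f' : ℕ → E → E) (z : E) (w : PiLp 2 (fun _ : Fin (n + 1) => E)) :
    PiLp 2 (fun _ : Fin n => E) :=
  WithLp.toLp 2 fun i : Fin n => f' i (orb f z i + w i.castSucc) - f i (orb f z i)
    - fderiv ℝ (f i) (orb f z i) (w i.castSucc)

theorem Nop_apply (n : ℕ) (f f' : ℕ → E → E) (z : E) (w : PiLp 2 (fun _ : Fin (n + 1) => E))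
    (i : Fin n) : Nop n f f' z w i = f' i (orb f z i + w i.castSucc) - f i (orb f z i)
    - fderiv ℝ (f i) (orb f z i) (w i.castSucc) := rfl

section block

variable {n : ℕ} {f f' : ℕ → E → E} {z : E} {e₀ C₂ r : ℝ}

theorem mem_ball_of_norm {w : PiLp 2 (fun _ : Fin (n + 1) => E)} (hw : ‖w‖ ≤ r) (i : Fin n) :
    orb f z i + w i.castSucc ∈ closedBall (orb f z i) r := by
  rw [mem_closedBall, dist_eq_norm, add_sub_cancel_left]
  exact (PiLp.norm_apply_le w i.castSucc).trans hw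

theorem Nop_lip (h : Hyp n f f' z e₀ C₂ r) (he : 0 ≤ e₀) (hC : 0 ≤ C₂) (hr : 0 ≤ r)
    (x y : PiLp 2 (fun _ : Fin (n + 1) => E)) (hx : ‖x‖ ≤ r) (hy : ‖y‖ ≤ r) :
    ‖Nop n f f' z x - Nop n f f' z y‖ ≤ (e₀ + C₂ * r) * ‖x - y‖ := by
  refine norm_le_of_coord _ _ (by positivity) fun i => ?_
  have h1 := h.err hC hr i.2 (mem_ball_of_norm (f := f) (z := z) hy i)
    (mem_ball_of_norm (f := f) (z := z) hx i)
  have h2 : (Nop n f f' z x - Nop n f f' z y) i =
      f' i (orb f z i + x i.castSucc) - f' i (orb f z i + y i.castSucc)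
      - fderiv ℝ (f i) (orb f z i)
        (orb f z i + x i.castSucc - (orb f z i + y i.castSucc)) := by
    rw [PiLp.sub_apply, Nop_apply, Nop_apply, add_sub_add_left_eq_sub, map_sub]
    abel
  rw [h2]
  refine h1.trans (le_of_eq ?_)
  rw [add_sub_add_left_eq_sub, PiLp.sub_apply]

theorem Nop_zero (h : Hyp n f f' z e₀ C₂ r) (he : 0 ≤ e₀) (hr : 0 ≤ r) :
    ‖Nop n f f' z 0‖ ≤ n * e₀ := by
  refine norm_le_of_coord_const _ he fun i => ?_
  rw [Nop_apply]
  simp only [PiLp.zero_apply, add_zero, map_zero, sub_zero]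
  exact h.h0 i i.2 _ (mem_closedBall_self hr)

variable (T : PiLp 2 (fun _ : Fin (n + 1) => E) →ₗ[ℝ] PiLp 2 (fun _ : Fin n => E))
  (hT : ∀ x i, T x i = x i.succ - fderiv ℝ (f i) (orb f z i) (x i.castSucc))

include hT

theorem T_Aop (u : E) : T (Aop n f z u) = 0 := by
  ext i
  rw [hT, Aop_apply, Aop_apply, Fin.val_succ, Fin.val_castSucc, dorb_succ_apply, sub_self]
  rfl

theorem eq_Aop_of_ker (k : PiLp 2 (fun _ : Fin (n + 1) => E)) (hk : T k = 0) :
    k = Aop n f z (k 0) := by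
  have key : ∀ (t : ℕ) (ht : t < n + 1), k ⟨t, ht⟩ = dorb f z t (k 0) := by
    intro t
    induction t with
    | zero => intro ht; rfl
    | succ t ih =>
      intro ht
      have h1 := hT k ⟨t, by omega⟩
      rw [hk] at h1
      have h2 := sub_eq_zero.1 h1.symm
      simp only [Fin.succ_mk, Fin.castSucc_mk] at h2
      rw [h2, ih (by omega), dorb_succ_apply]
  ext t
  rw [Aop_apply]
  exact key t t.2

theorem T_Yop (u v : E) (i : Fin n) : T (Yop n f z u v) i =
    fderiv ℝ (fderiv ℝ (f i)) (orb f z i) (Aop n f z u i.castSucc) (Aop n f z v i.castSucc) := by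
  rw [hT, Yop_apply, Yop_apply, Fin.val_succ, Fin.val_castSucc, yorb_succ_apply, Aop_apply,
    Aop_apply, Fin.val_castSucc]
  abel

theorem T_Yop_norm (h : Hyp n f f' z e₀ C₂ r) (hC : 0 ≤ C₂) (hr : 0 ≤ r) (u v : E) :
    ‖T (Yop n f z u v)‖ ≤ C₂ * (‖Aop n f z v‖ * ‖Aop n f z u‖) := by
  have h1 := norm_le_of_coord (T (Yop n f z u v)) (Aop n f z v) (c := C₂ * ‖Aop n f z u‖)
    (by positivity) (fun i => by
      rw [T_Yop T hT]
      refine (ContinuousLinearMap.le_opNorm₂ _ _ _).trans ?_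
      have e1 := h.h2 i i.2 _ (mem_closedBall_self hr)
      have e2 := PiLp.norm_apply_le (Aop n f z u) i.castSucc
      gcongr)
  exact h1.trans (le_of_eq (by ring))

/-- `Zorb f' z' = Zorb f z + w` if `w` solves the correction equation -/
theorem Zorb_of_correction (w : PiLp 2 (fun _ : Fin (n + 1) => E)) (hw : T w = Nop n f f' z w) :
    Zorb n f' (z + w 0) = Zorb n f z + w := by
  have key : ∀ (t : ℕ) (ht : t < n + 1), orb f' (z + w 0) t = orb f z t + w ⟨t, ht⟩ := by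
    intro t
    induction t with
    | zero => intro ht; rfl
    | succ t ih =>
      intro ht
      have h1 := hT w ⟨t, by omega⟩
      rw [hw, Nop_apply] at h1
      simp only [Fin.succ_mk, Fin.castSucc_mk] at h1
      rw [← ih (by omega), sub_left_inj] at h1
      rw [orb_succ, orb_succ, ← h1]
      abel
  ext t
  exact key t t.2

/-- converse -/
theorem correction_of_Zorb (z' : E) :
    T (Zorb n f' z' - Zorb n f z) = Nop n f f' z (Zorb n f' z' - Zorb n f z) := by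
  ext i
  rw [hT, Nop_apply, sub_left_inj]
  simp only [PiLp.sub_apply, Zorb_apply, Fin.val_succ, Fin.val_castSucc, add_sub_cancel]
  rfl

/-- injectivity of `A† A'` -/
theorem inj_of_close (h : Hyp n f f' z e₀ C₂ r) (he : 0 ≤ e₀) (hC : 0 ≤ C₂) (hr : 0 ≤ r) {κ : ℝ}
    (hκ0 : 0 ≤ κ) (hκ : ∀ y, ‖y‖ ≤ κ * ‖LinearMap.adjoint T y‖)
    (hκζ : κ * (e₀ + C₂ * r) ≤ 1 / 2) (z' : E)
    (hz' : ∀ t, t ≤ n → orb f' z' t ∈ closedBall (orb f z t) r)
    (u : E) (hu : ∀ v, ⟪Aop n f z v, Aop n f' z' u⟫_ℝ = 0) : u = 0 := by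
  have h1 := norm_le_of_perp T hκ (Aop n f' z' u) (fun k hk => by
    rw [eq_Aop_of_ker T hT k hk]; exact hu _)
  have h2 : ‖T (Aop n f' z' u)‖ ≤ (e₀ + C₂ * r) * ‖Aop n f' z' u‖ := by
    refine norm_le_of_coord _ _ (by positivity) fun i => ?_
    have e1 : T (Aop n f' z' u) i =
        (fderiv ℝ (f' i) (orb f' z' i) - fderiv ℝ (f i) (orb f z i))
          (Aop n f' z' u i.castSucc) := by
      rw [hT, Aop_apply, Aop_apply, Fin.val_succ, Fin.val_castSucc, dorb_succ_apply]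
      rfl
    rw [e1]
    refine (ContinuousLinearMap.le_opNorm _ _).trans ?_
    gcongr
    have hb := hz' i (by omega)
    have e2 := h.h1 i i.2 _ hb
    have e3 := h.lip i.2 (mem_closedBall_self hr) hb
    have e4 : ‖orb f' z' i - orb f z i‖ ≤ r := by rw [← dist_eq_norm]; exact hb
    calc ‖fderiv ℝ (f' i) (orb f' z' i) - fderiv ℝ (f i) (orb f z i)‖
        ≤ ‖fderiv ℝ (f' i) (orb f' z' i) - fderiv ℝ (f i) (orb f' z' i)‖ +
          ‖fderiv ℝ (f i) (orb f' z' i) - fderiv ℝ (f i) (orb f z i)‖ :=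
          norm_sub_le_norm_sub_add_norm_sub _ _ _
      _ ≤ e₀ + C₂ * r := add_le_add e2 (e3.trans (by gcongr))
  have h3 : ‖Aop n f' z' u‖ ≤ 1 / 2 * ‖Aop n f' z' u‖ :=
    calc ‖Aop n f' z' u‖ ≤ κ * ‖T (Aop n f' z' u)‖ := h1
      _ ≤ κ * ((e₀ + C₂ * r) * ‖Aop n f' z' u‖) := by gcongr
      _ = (κ * (e₀ + C₂ * r)) * ‖Aop n f' z' u‖ := by ring
      _ ≤ 1 / 2 * ‖Aop n f' z' u‖ := by gcongr
  have h4 : ‖Aop n f' z' u‖ = 0 := by
    have := norm_nonneg (Aop n f' z' u)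
    linarith
  have h5 : Aop n f' z' u 0 = u := by rw [Aop_apply]; rfl
  rw [← h5, norm_eq_zero.1 h4]
  rfl

end block

/-- **The shadowing map.**  `Θ z` is the initial point of the `f'`-orbit closest (in the sense of
least squares) to the `f`-orbit of `z`. -/
theorem exists_theta {n : ℕ} {f f' : ℕ → E → E} {G : Set E} {e₀ C₂ r κ ρ : ℝ}
    (hG : ∀ z ∈ G, Hyp n f f' z e₀ C₂ r)
    (T : E → PiLp 2 (fun _ : Fin (n + 1) => E) →ₗ[ℝ] PiLp 2 (fun _ : Fin n => E))
    (hT : ∀ z ∈ G, ∀ x i, T z x i = x i.succ - fderiv ℝ (f i) (orb f z i) (x i.castSucc))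
    (hκ0 : 0 ≤ κ) (hκ : ∀ z ∈ G, ∀ y, ‖y‖ ≤ κ * ‖LinearMap.adjoint (T z) y‖)
    (he : 0 ≤ e₀) (hC : 0 ≤ C₂) (hr : 0 < r) (hρ0 : 0 ≤ ρ) (hρr : 2 * ρ ≤ r)
    (hκζ : κ * (e₀ + C₂ * r) ≤ 1 / 2)
    (hδ : κ * (n * e₀) + κ * (e₀ + C₂ * r) * ρ ≤ ρ) (hs : 2 * κ * C₂ * ρ < 1) :
    ∃ Θ : E → E, InjOn Θ G ∧
      (∀ z ∈ G, ∀ t, t ≤ n → dist (orb f' (Θ z) t) (orb f z t) ≤ ρ) ∧
      ∀ z ∈ G, ∃ L B : E →L[ℝ] E, HasFDerivWithinAt Θ L G z ∧
        ((ContinuousLinearMap.adjoint (Aop n f z)).comp (Aop n f' (Θ z))).comp L =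
          (ContinuousLinearMap.adjoint (Aop n f z)).comp (Aop n f z) - B ∧
        ∀ u v, |⟪v, B u⟫_ℝ| ≤ (κ * C₂ * ρ) * (‖Aop n f z v‖ * ‖Aop n f z u‖) := by
  classical
  have hr0 : 0 ≤ r := hr.le
  have hρr' : ρ ≤ r := by linarith
  have hρr'' : ρ < r := by
    rcases eq_or_lt_of_le hρ0 with h | h
    · rw [← h]; exact hr
    · linarith
  -- the corrections
  have hex : ∀ z ∈ G, ∃ w, ‖w‖ ≤ ρ ∧ (∀ k, T z k = 0 → ⟪k, w⟫_ℝ = 0) ∧
      T z w = Nop n f f' z w := by
    intro z hz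
    exact exists_correction (T z) hκ0 (hκ z hz) (Nop n f f' z) hρ0 hρr'
      (Nop_zero (hG z hz) he hr0) (Nop_lip (hG z hz) he hC hr0) (by positivity) hκζ hδ
  choose! w hw1 hw2 hw3 using hex
  set Θ : E → E := fun z => z + w z 0 with hΘ
  have hZ : ∀ z ∈ G, Zorb n f' (Θ z) = Zorb n f z + w z := fun z hz =>
    Zorb_of_correction (T z) (hT z hz) (w z) (hw3 z hz)
  have horb : ∀ z ∈ G, ∀ t : Fin (n + 1), orb f' (Θ z) t = orb f z t + w z t := fun z hz t => by
    have := congrArg (fun v : PiLp 2 (fun _ : Fin (n + 1) => E) => v t) (hZ z hz)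
    simpa [Zorb_apply] using this
  have hdist : ∀ z ∈ G, ∀ t, t ≤ n → dist (orb f' (Θ z) t) (orb f z t) ≤ ρ := by
    intro z hz t ht
    have h1 := horb z hz ⟨t, by omega⟩
    simp only at h1
    rw [h1, dist_eq_norm, add_sub_cancel_left]
    exact (PiLp.norm_apply_le _ _).trans (hw1 z hz)
  refine ⟨Θ, ?_, hdist, ?_⟩
  · -- injectivity
    intro z hz z₁ hz₁ heq
    have hδw : Zorb n f z₁ - Zorb n f z = w z - w z₁ := by
      have e1 := hZ z hz
      have e2 := hZ z₁ hz₁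
      rw [heq, e2] at e1
      rw [sub_eq_sub_iff_add_eq_add, e1]
      abel
    have hnorm : ‖Zorb n f z₁ - Zorb n f z‖ ≤ 2 * ρ := by
      rw [hδw]
      exact (norm_sub_le _ _).trans (by linarith [hw1 z hz, hw1 z₁ hz₁])
    have hcoord : ∀ i : Fin (n + 1), ‖orb f z₁ i - orb f z i‖ ≤ ‖Zorb n f z₁ - Zorb n f z‖ :=
      fun i => PiLp.norm_apply_le (Zorb n f z₁ - Zorb n f z) i
    have hb1 : ‖T z (Zorb n f z₁ - Zorb n f z)‖ ≤ C₂ * ‖Zorb n f z₁ - Zorb n f z‖ ^ 2 := by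
      have h1 := norm_le_of_coord (T z (Zorb n f z₁ - Zorb n f z)) (Zorb n f z₁ - Zorb n f z)
        (c := C₂ * ‖Zorb n f z₁ - Zorb n f z‖) (by positivity) (fun i => by
          rw [hT z hz]
          simp only [PiLp.sub_apply, Zorb_apply, Fin.val_succ, Fin.val_castSucc, orb_succ]
          have h2 : orb f z₁ i ∈ closedBall (orb f z i) r := by
            rw [mem_closedBall, dist_eq_norm]
            exact (hcoord i.castSucc).trans (hnorm.trans hρr)
          refine ((hG z hz).quad hC i.2 h2).trans ?_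
          have h3 := hcoord i.castSucc
          rw [Fin.val_castSucc] at h3
          rw [pow_two, mul_assoc]
          gcongr)
      refine h1.trans (le_of_eq (by ring))
    have hb2 : ‖T z₁ (Zorb n f z₁ - Zorb n f z)‖ ≤ C₂ * ‖Zorb n f z₁ - Zorb n f z‖ ^ 2 := by
      have h1 := norm_le_of_coord (T z₁ (Zorb n f z₁ - Zorb n f z)) (Zorb n f z₁ - Zorb n f z)
        (c := C₂ * ‖Zorb n f z₁ - Zorb n f z‖) (by positivity) (fun i => by
          rw [hT z₁ hz₁]
          simp only [PiLp.sub_apply, Zorb_apply, Fin.val_succ, Fin.val_castSucc, orb_succ]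
          have h2 : orb f z i ∈ closedBall (orb f z₁ i) r := by
            rw [mem_closedBall, dist_comm, dist_eq_norm]
            exact (hcoord i.castSucc).trans (hnorm.trans hρr)
          have h4 := (hG z₁ hz₁).quad hC i.2 h2
          have h5 : f i (orb f z₁ i) - f i (orb f z i)
              - fderiv ℝ (f i) (orb f z₁ i) (orb f z₁ i - orb f z i) =
              -(f i (orb f z i) - f i (orb f z₁ i)
              - fderiv ℝ (f i) (orb f z₁ i) (orb f z i - orb f z₁ i)) := by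
            rw [map_sub, map_sub]; abel
          rw [h5, norm_neg]
          refine h4.trans ?_
          have h3 := hcoord i.castSucc
          rw [Fin.val_castSucc] at h3
          rw [norm_sub_rev, pow_two, mul_assoc]
          gcongr)
      refine h1.trans (le_of_eq (by ring))
    have hz0 := eq_zero_of_perp (T z) (T z₁) hκ0 hC (hκ z hz) (hκ z₁ hz₁) hδw (hw2 z hz)
      (hw2 z₁ hz₁) (hw1 z hz) (hw1 z₁ hz₁) hb1 hb2 hs
    have h6 := congrArg (fun v : PiLp 2 (fun _ : Fin (n + 1) => E) => v 0) hz0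
    have h7 : z₁ - z = 0 := h6
    exact (sub_eq_zero.1 h7).symm
  · -- derivative
    intro z hz
    have hHz := hG z hz
    have hd1 : HasStrictFDerivAt (Zorb n f) (Aop n f z) z :=
      hasStrictFDerivAt_Zorb fun t ht => hHz.strict hr0 ht
    have hd2 : HasStrictFDerivAt (Aop n f) (Yop n f z) z :=
      hasStrictFDerivAt_Aop (fun t ht => hHz.strict hr0 ht) (fun t ht => hHz.strict2 hr0 ht)
    have hball : ∀ t, t ≤ n → orb f' (Θ z) t ∈ closedBall (orb f z t) r := fun t ht =>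
      closedBall_subset_closedBall hρr' (hdist z hz t ht)
    have hd3 : HasStrictFDerivAt (Zorb n f') (Aop n f' (Θ z)) (Θ z) :=
      hasStrictFDerivAt_Zorb fun t ht =>
        (hHz.df' t ht _ (hball t ht.le)).hasStrictFDerivAt (by norm_num)
    have hwz : Zorb n f' (Θ z) - Zorb n f z = w z := by rw [hZ z hz]; abel
    obtain ⟨ψ, L, hψ1, hψ2, hψ3, hψ4⟩ := exists_implicit (Zorb n f) (Zorb n f') (Aop n f) z (Θ z)
      (Yop n f z) (Aop n f' (Θ z)) hd1 hd3 hd2
      (fun v => by rw [hwz]; exact hw2 z hz _ (T_Aop (T z) (hT z hz) v))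
      (fun u hu => inj_of_close (T z) (hT z hz) hHz he hC hr0 hκ0 (hκ z hz) hκζ (Θ z) hball u hu)
    rw [hwz] at hψ4
    -- `ψ = Θ` near `z` on `G`
    have hcont : ContinuousAt (fun x => ‖Zorb n f' (ψ x) - Zorb n f x‖) z := by
      have c1 : ContinuousAt (fun x => Zorb n f' (ψ x)) z := by
        refine ContinuousAt.comp (g := Zorb n f') ?_ hψ1.continuousAt
        rw [hψ2]
        exact hd3.continuousAt
      exact (c1.sub hd1.continuousAt).norm
    have hev : ∀ᶠ x in 𝓝 z, ‖Zorb n f' (ψ x) - Zorb n f x‖ < r := by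
      refine hcont.eventually_lt continuousAt_const ?_
      rw [hψ2, hwz]
      exact lt_of_le_of_lt (hw1 z hz) hρr''
    have heq : ∀ᶠ x in 𝓝[G] z, Θ x = ψ x := by
      filter_upwards [self_mem_nhdsWithin, nhdsWithin_le_nhds hψ3, nhdsWithin_le_nhds hev]
        with x hxG hx1 hx2
      have e1 : Zorb n f' (ψ x) - Zorb n f x = w x := by
        refine correction_unique (T x) hκ0 (hκ x hxG) (Nop n f f' x)
          (Nop_lip (hG x hxG) he hC hr0) hκζ hx2.le ((hw1 x hxG).trans hρr') ?_ (hw2 x hxG)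
          (correction_of_Zorb (T x) (hT x hxG) (ψ x)) (hw3 x hxG)
        intro k hk
        rw [eq_Aop_of_ker (T x) (hT x hxG) k hk]
        exact hx1 _
      have e2 := congrArg (fun v : PiLp 2 (fun _ : Fin (n + 1) => E) => v 0) e1
      have e3 : ψ x - x = w x 0 := e2
      change x + w x 0 = ψ x
      rw [← e3]; abel
    have hder : HasFDerivWithinAt Θ L G z := by
      refine (hψ1.hasFDerivAt.hasFDerivWithinAt (s := G)).congr_of_eventuallyEq heq ?_
      rw [hψ2]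
    refine ⟨L, (ContinuousLinearMap.adjoint (Aop n f z)).comp (Aop n f z) -
      ((ContinuousLinearMap.adjoint (Aop n f z)).comp (Aop n f' (Θ z))).comp L, hder, ?_, ?_⟩
    · abel
    · intro u v
      have e1 : ⟪v, ((ContinuousLinearMap.adjoint (Aop n f z)).comp (Aop n f z) -
          ((ContinuousLinearMap.adjoint (Aop n f z)).comp (Aop n f' (Θ z))).comp L) u⟫_ℝ =
          ⟪Yop n f z u v, w z⟫_ℝ := by
        have e2 := hψ4 u v
        rw [sub_apply, inner_sub_right]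
        simp only [ContinuousLinearMap.comp_apply, ContinuousLinearMap.adjoint_inner_right]
        linarith
      rw [e1]
      refine (inner_le_of_perp (T z) (hκ z hz) _ _ (hw2 z hz)).trans ?_
      have e3 := T_Yop_norm (T z) (hT z hz) hHz hC hr0 u v
      calc κ * ‖T z (Yop n f z u v)‖ * ‖w z‖
          ≤ κ * (C₂ * (‖Aop n f z v‖ * ‖Aop n f z u‖)) * ρ := by
            gcongr
            exact hw1 z hz
        _ = _ := by ring

end Vale.Agent.P109.ST288
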