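import Mathlib

/-! Determinant identity for pseudo-orbit operators (static shadow lemma). -/

namespace Vale.Agent.P109.ST288

open Module

section Plain

variable {E : Type*} [AddCommGroup E] [Module ℝ E]

/-- `1 - φ` has determinant one if `φ` is nilpotent. -/
theorem det_one_sub_nilpotent {V : Type*} [AddCommGroup V] [Module ℝ V] [FiniteDimensional ℝ V]
    (φ : V →ₗ[ℝ] V) (h : IsNilpotent φ) : LinearMap.det (1 - φ) = 1 := by
  have h1 := LinearMap.eval_charpoly φ (1 : ℝ)
  rw [IsNilpotent.charpoly_eq_X_pow_finrank h] at h1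
  simpa using h1.symm

/-- the strictly lower triangular part -/
def nil (n : ℕ) (D : ℕ → E →ₗ[ℝ] E) : (Fin (n + 1) → E) →ₗ[ℝ] (Fin (n + 1) → E) where
  toFun x := Fin.cons 0 (fun t : Fin n => D t (x t.castSucc))
  map_add' x y := by
    ext i
    refine Fin.cases ?_ (fun t => ?_) i <;> simp
  map_smul' c x := by
    ext i
    refine Fin.cases ?_ (fun t => ?_) i <;> simp

theorem nil_zero (n : ℕ) (D : ℕ → E →ₗ[ℝ] E) (x : Fin (n + 1) → E) : nil n D x 0 = 0 := rfl

theorem nil_succ (n : ℕ) (D : ℕ → E →ₗ[ℝ] E) (x : Fin (n + 1) → E) (t : Fin n) :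
    nil n D x t.succ = D t (x t.castSucc) := rfl

theorem nil_pow (n : ℕ) (D : ℕ → E →ₗ[ℝ] E) (k : ℕ) (x : Fin (n + 1) → E) (i : Fin (n + 1))
    (hi : (i : ℕ) < k) : ((nil n D) ^ k) x i = 0 := by
  induction k generalizing i with
  | zero => omega
  | succ k ih =>
    rw [pow_succ']
    change nil n D (((nil n D) ^ k) x) i = 0
    revert hi
    refine Fin.cases ?_ (fun t => ?_) i
    · intro _; rfl
    · intro hi
      rw [nil_succ, ih, map_zero]
      simp at hi ⊢
      omega

theorem nil_nilpotent (n : ℕ) (D : ℕ → E →ₗ[ℝ] E) : IsNilpotent (nil n D) := by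
  refine ⟨n + 1, LinearMap.ext fun x => funext fun i => ?_⟩
  rw [nil_pow n D (n + 1) x i i.2]
  rfl

/-- the triangular operator `x ↦ (x₀, (x_{t+1} - D_t x_t)_t)` -/
def tri (n : ℕ) (D : ℕ → E →ₗ[ℝ] E) : (Fin (n + 1) → E) →ₗ[ℝ] (Fin (n + 1) → E) :=
  1 - nil n D

theorem tri_zero (n : ℕ) (D : ℕ → E →ₗ[ℝ] E) (x : Fin (n + 1) → E) : tri n D x 0 = x 0 := by
  simp [tri, nil_zero]

theorem tri_succ (n : ℕ) (D : ℕ → E →ₗ[ℝ] E) (x : Fin (n + 1) → E) (t : Fin n) :
    tri n D x t.succ = x t.succ - D t (x t.castSucc) := by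
  simp [tri, nil_succ]

variable [FiniteDimensional ℝ E]

theorem det_tri (n : ℕ) (D : ℕ → E →ₗ[ℝ] E) : LinearMap.det (tri n D) = 1 :=
  det_one_sub_nilpotent _ (nil_nilpotent n D)

/-- block triangular determinant: an operator which is the identity on the tail. -/
theorem det_tail_id {n : ℕ} (C : (Fin (n + 1) → E) →ₗ[ℝ] (Fin (n + 1) → E))
    (hC : ∀ y (t : Fin n), C y t.succ = y t.succ) (L : E →ₗ[ℝ] E)
    (hL : ∀ u, L u = C (Fin.cons u 0) 0) : LinearMap.det C = LinearMap.det L := by
  classical
  -- the off-diagonal part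
  let N : (Fin (n + 1) → E) →ₗ[ℝ] (Fin (n + 1) → E) :=
    { toFun := fun y => Fin.cons (-(C (Fin.cons 0 (fun t => y t.succ)) 0)) 0
      map_add' := by
        intro x y
        have h : (Fin.cons 0 (fun t : Fin n => (x + y) t.succ) : Fin (n + 1) → E)
            = Fin.cons 0 (fun t : Fin n => x t.succ) + Fin.cons 0 (fun t : Fin n => y t.succ) := by
          ext i
          refine Fin.cases ?_ (fun t => ?_) i <;> simp
        ext i
        refine Fin.cases ?_ (fun t => ?_) i
        · simp only [Fin.cons_zero, Pi.add_apply]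
          have h2 : C (Fin.cons 0 (fun t : Fin n => x t.succ + y t.succ)) 0
              = C (Fin.cons 0 (fun t : Fin n => x t.succ)) 0
                + C (Fin.cons 0 (fun t : Fin n => y t.succ)) 0 := by
            have := congrArg (fun z => C z 0) h
            simpa using this
          rw [h2]; abel
        · simp
      map_smul' := by
        intro c x
        have h : (Fin.cons 0 (fun t : Fin n => (c • x) t.succ) : Fin (n + 1) → E)
            = c • (Fin.cons 0 (fun t : Fin n => x t.succ) : Fin (n + 1) → E) := by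
          ext i
          refine Fin.cases ?_ (fun t => ?_) i <;> simp
        ext i
        refine Fin.cases ?_ (fun t => ?_) i
        · have h2 : C (Fin.cons 0 (fun t : Fin n => c • x t.succ)) 0
              = c • C (Fin.cons 0 (fun t : Fin n => x t.succ)) 0 := by
            have := congrArg (fun z => C z 0) h
            simpa using this
          simp [h2]
        · simp }
  have hNap : ∀ y, N y = Fin.cons (-(C (Fin.cons 0 (fun t => y t.succ)) 0)) 0 := fun y => rfl
  have hN : IsNilpotent N := by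
    refine ⟨2, LinearMap.ext fun y => ?_⟩
    rw [pow_two]
    change N (N y) = 0
    rw [hNap (N y)]
    have : (Fin.cons 0 (fun t : Fin n => N y t.succ) : Fin (n + 1) → E) = 0 := by
      ext i
      refine Fin.cases ?_ (fun t => ?_) i
      · simp
      · simp [hNap]
    rw [this]
    ext i
    refine Fin.cases ?_ (fun t => ?_) i <;> simp
  let D1 : (Fin (n + 1) → E) →ₗ[ℝ] (Fin (n + 1) → E) :=
    LinearMap.pi (fun i => (if i = 0 then L else 1).comp (LinearMap.proj i))
  have hdec : C = (1 - N) * D1 := by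
    refine LinearMap.ext fun y => funext fun i => ?_
    change C y i = (D1 y - N (D1 y)) i
    rw [hNap (D1 y)]
    have hD1s : ∀ t : Fin n, D1 y t.succ = y t.succ := by
      intro t
      simp [D1, Fin.succ_ne_zero]
    have hD10 : D1 y 0 = L (y 0) := by simp [D1]
    refine Fin.cases ?_ (fun t => ?_) i
    · simp only [Pi.sub_apply, Fin.cons_zero, hD10, hD1s, hL]
      have hsum : y = Fin.cons (y 0) 0 + Fin.cons 0 (fun t : Fin n => y t.succ) := by
        ext i
        refine Fin.cases ?_ (fun t => ?_) i <;> simp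
      have h3 : C y 0 = C (Fin.cons (y 0) 0) 0 + C (Fin.cons 0 (fun t : Fin n => y t.succ)) 0 := by
        have := congrArg (fun z => C z 0) hsum
        simpa using this
      rw [h3]; abel
    · simp [hC, hD1s]
  rw [hdec, map_mul, det_one_sub_nilpotent N hN, one_mul]
  have := LinearMap.det_pi (R := ℝ) (M := E) (ι := Fin (n + 1)) (fun i => if i = 0 then L else 1)
  rw [show D1 = LinearMap.pi (fun i => (if i = 0 then L else 1).comp (LinearMap.proj i)) from rfl,
    this, Finset.prod_eq_single 0]
  · simp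
  · intro b _ hb
    simp [hb]
  · simp

/-- **Determinant identity.** -/
theorem det_intertwine {n : ℕ} (D D' : ℕ → E →ₗ[ℝ] E)
    (M : (Fin (n + 1) → E) →ₗ[ℝ] (Fin (n + 1) → E))
    (hM : ∀ x (t : Fin n), M x t.succ - D t (M x t.castSucc) = x t.succ - D' t (x t.castSucc))
    (A' : E →ₗ[ℝ] (Fin (n + 1) → E)) (h0 : ∀ u, A' u 0 = u)
    (hA : ∀ u (t : Fin n), A' u t.succ = D' t (A' u t.castSucc)) (L : E →ₗ[ℝ] E)
    (hL : ∀ u, L u = M (A' u) 0) :
    LinearMap.det M = LinearMap.det L := by
  have hu : IsUnit (LinearMap.det (tri n D')) := by rw [det_tri]; exact isUnit_one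
  let JE : (Fin (n + 1) → E) ≃ₗ[ℝ] (Fin (n + 1) → E) := LinearEquiv.ofIsUnitDet (f := tri n D')
    (v := Module.finBasis ℝ _) (v' := Module.finBasis ℝ _) (by
      rw [LinearMap.det_toMatrix]; exact hu)
  have hJE : ∀ x, JE x = tri n D' x := fun x => rfl
  let C : (Fin (n + 1) → E) →ₗ[ℝ] (Fin (n + 1) → E) := (tri n D) ∘ₗ M ∘ₗ JE.symm.toLinearMap
  have h1 : C ∘ₗ (tri n D') = (tri n D) ∘ₗ M := by
    refine LinearMap.ext fun x => ?_
    change (tri n D) (M (JE.symm (tri n D' x))) = _
    rw [← hJE x, JE.symm_apply_apply]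
    rfl
  have h2 : LinearMap.det C = LinearMap.det M := by
    have e0 := congrArg LinearMap.det h1
    have e1 := LinearMap.det_comp C (tri n D')
    have e2 := LinearMap.det_comp (tri n D) M
    rw [det_tri] at e1 e2
    linarith
  rw [← h2]
  refine det_tail_id C ?_ L ?_
  · intro y t
    change tri n D (M (JE.symm y)) t.succ = y t.succ
    rw [tri_succ, hM, ← tri_succ, ← hJE, JE.apply_symm_apply]
  · intro u
    have h3 : JE.symm (Fin.cons u 0) = A' u := by
      rw [LinearEquiv.symm_apply_eq, hJE]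
      ext i
      refine Fin.cases ?_ (fun t => ?_) i
      · simp [tri_zero, h0]
      · simp [tri_succ, hA]
    change L u = tri n D (M (JE.symm (Fin.cons u 0))) 0
    rw [h3, tri_zero, hL]

end Plain

end Vale.Agent.P109.ST288
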