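import Mathlib.Topology.MetricSpace.Contracting
import Vale.Agent.P109.SH.Lin

/-!
Static shadow lemma, step (1): the correction `w ⟂ ker T`, `T w = N w`, by Banach's fixed
point theorem, and its uniqueness; step (5): the abstract inequality behind injectivity.
-/

open scoped InnerProductSpace
open Set Metric

namespace Vale.Agent.P109.ST288

variable {V F : Type*}
  [NormedAddCommGroup V] [InnerProductSpace ℝ V] [FiniteDimensional ℝ V]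
  [NormedAddCommGroup F] [InnerProductSpace ℝ F] [FiniteDimensional ℝ F]

/-- If `x ⟂ ker T` then `‖x‖ ≤ κ ‖T x‖`. -/
theorem norm_le_of_perp (T : V →ₗ[ℝ] F) {κ : ℝ}
    (hT : ∀ y, ‖y‖ ≤ κ * ‖LinearMap.adjoint T y‖) (x : V)
    (hx : ∀ k, T k = 0 → ⟪k, x⟫_ℝ = 0) : ‖x‖ ≤ κ * ‖T x‖ := by
  obtain ⟨P, -, h2, -, h4⟩ := SH.exists_pinv T hT
  have := h2 (T x)
  rwa [h4 x hx] at this

/-- If `w ⟂ ker T` then `|⟪y, w⟫| ≤ κ ‖T y‖ ‖w‖` for every `y`. -/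
theorem inner_le_of_perp (T : V →ₗ[ℝ] F) {κ : ℝ}
    (hT : ∀ y, ‖y‖ ≤ κ * ‖LinearMap.adjoint T y‖) (y w : V)
    (hw : ∀ k, T k = 0 → ⟪k, w⟫_ℝ = 0) : |⟪y, w⟫_ℝ| ≤ κ * ‖T y‖ * ‖w‖ := by
  obtain ⟨P, h1, h2, -, -⟩ := SH.exists_pinv T hT
  have h5 : T (y - P (T y)) = 0 := by
    rw [map_sub]
    have : T (P (T y)) = T y := LinearMap.congr_fun h1 _
    rw [this, sub_self]
  have h6 : ⟪y, w⟫_ℝ = ⟪P (T y), w⟫_ℝ := by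
    have := hw _ h5
    rw [inner_sub_left] at this
    linarith
  rw [h6]
  exact (abs_real_inner_le_norm _ _).trans
    (mul_le_mul_of_nonneg_right (h2 _) (norm_nonneg _))

/-- Existence of the correction. -/
theorem exists_correction (T : V →ₗ[ℝ] F) {κ : ℝ} (hκ : 0 ≤ κ)
    (hT : ∀ y, ‖y‖ ≤ κ * ‖LinearMap.adjoint T y‖) (N : V → F) {r ρ ζ δ : ℝ} (hρ0 : 0 ≤ ρ)
    (hρr : ρ ≤ r) (hN0 : ‖N 0‖ ≤ δ)
    (hN : ∀ x y, ‖x‖ ≤ r → ‖y‖ ≤ r → ‖N x - N y‖ ≤ ζ * ‖x - y‖)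
    (hζ : 0 ≤ ζ) (hκζ : κ * ζ ≤ 1 / 2) (hδ : κ * δ + κ * ζ * ρ ≤ ρ) :
    ∃ w, ‖w‖ ≤ ρ ∧ (∀ k, T k = 0 → ⟪k, w⟫_ℝ = 0) ∧ T w = N w := by
  obtain ⟨P, h1, h2, h3, -⟩ := SH.exists_pinv T hT
  have hr : 0 ≤ r := hρ0.trans hρr
  have key : ∀ x y, ‖x‖ ≤ r → ‖y‖ ≤ r → ‖P (N x) - P (N y)‖ ≤ 1 / 2 * ‖x - y‖ := by
    intro x y hx hy
    rw [← map_sub]
    calc ‖P (N x - N y)‖ ≤ κ * ‖N x - N y‖ := h2 _
      _ ≤ κ * (ζ * ‖x - y‖) := mul_le_mul_of_nonneg_left (hN x y hx hy) hκ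
      _ = (κ * ζ) * ‖x - y‖ := by ring
      _ ≤ 1 / 2 * ‖x - y‖ := mul_le_mul_of_nonneg_right hκζ (norm_nonneg _)
  have hmaps : MapsTo (fun x => P (N x)) (closedBall (0 : V) ρ) (closedBall (0 : V) ρ) := by
    intro x hx
    rw [mem_closedBall_zero_iff] at hx ⊢
    have e1 : ‖P (N x) - P (N 0)‖ ≤ κ * ζ * ρ := by
      rw [← map_sub]
      have e0 := hN x 0 (hx.trans hρr) (by simpa using hr)
      rw [sub_zero] at e0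
      calc ‖P (N x - N 0)‖ ≤ κ * ‖N x - N 0‖ := h2 _
        _ ≤ κ * (ζ * ρ) := by gcongr; exact e0.trans (by gcongr)
        _ = κ * ζ * ρ := by ring
    have e2 : ‖P (N 0)‖ ≤ κ * δ := (h2 _).trans (mul_le_mul_of_nonneg_left hN0 hκ)
    have e3 : ‖P (N x)‖ ≤ ‖P (N x) - P (N 0)‖ + ‖P (N 0)‖ := by
      have := norm_add_le (P (N x) - P (N 0)) (P (N 0))
      simpa using this
    change ‖P (N x)‖ ≤ ρ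
    linarith
  have hcontr : ContractingWith (1 / 2) (hmaps.restrict (fun x => P (N x)) _ _) := by
    refine ⟨by norm_num, LipschitzWith.of_dist_le_mul ?_⟩
    rintro ⟨x, hx⟩ ⟨y, hy⟩
    rw [Subtype.dist_eq, Subtype.dist_eq, dist_eq_norm, dist_eq_norm]
    rw [mem_closedBall_zero_iff] at hx hy
    have := key x y (hx.trans hρr) (hy.trans hρr)
    simpa using this
  have hcomp : IsComplete (closedBall (0 : V) ρ) := isClosed_closedBall.isComplete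
  obtain ⟨w, hw1, hw2, -, -⟩ := hcontr.exists_fixedPoint' hcomp hmaps
    (x := (0 : V)) (mem_closedBall_self hρ0) (edist_ne_top _ _)
  have hw2' : P (N w) = w := hw2
  refine ⟨w, by simpa using hw1, fun k hk => ?_, ?_⟩
  · rw [← hw2']
    exact h3 k _ hk
  · have : T (P (N w)) = N w := LinearMap.congr_fun h1 _
    rwa [hw2'] at this

/-- Uniqueness of the correction. -/
theorem correction_unique (T : V →ₗ[ℝ] F) {κ : ℝ} (hκ : 0 ≤ κ)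
    (hT : ∀ y, ‖y‖ ≤ κ * ‖LinearMap.adjoint T y‖) (N : V → F) {r ζ : ℝ}
    (hN : ∀ x y, ‖x‖ ≤ r → ‖y‖ ≤ r → ‖N x - N y‖ ≤ ζ * ‖x - y‖)
    (hκζ : κ * ζ ≤ 1 / 2) {w₁ w₂ : V} (h1 : ‖w₁‖ ≤ r) (h2 : ‖w₂‖ ≤ r)
    (hp1 : ∀ k, T k = 0 → ⟪k, w₁⟫_ℝ = 0) (hp2 : ∀ k, T k = 0 → ⟪k, w₂⟫_ℝ = 0)
    (he1 : T w₁ = N w₁) (he2 : T w₂ = N w₂) : w₁ = w₂ := by
  have e1 := norm_le_of_perp T hT (w₁ - w₂) (fun k hk => by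
    rw [inner_sub_right, hp1 k hk, hp2 k hk, sub_zero])
  rw [map_sub, he1, he2] at e1
  have e2 : ‖w₁ - w₂‖ ≤ 1 / 2 * ‖w₁ - w₂‖ :=
    calc ‖w₁ - w₂‖ ≤ κ * ‖N w₁ - N w₂‖ := e1
      _ ≤ κ * (ζ * ‖w₁ - w₂‖) := mul_le_mul_of_nonneg_left (hN _ _ h1 h2) hκ
      _ = (κ * ζ) * ‖w₁ - w₂‖ := by ring
      _ ≤ 1 / 2 * ‖w₁ - w₂‖ := mul_le_mul_of_nonneg_right hκζ (norm_nonneg _)
  have e3 : ‖w₁ - w₂‖ = 0 := by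
    have := norm_nonneg (w₁ - w₂)
    linarith
  exact sub_eq_zero.1 (norm_eq_zero.1 e3)

/-- Abstract injectivity inequality: `δ = w - w'`, `w ⟂ ker T`, `w' ⟂ ker T'`, and
`‖T δ‖, ‖T' δ‖ ≤ C ‖δ‖²` force `δ = 0` when `2 κ C ρ < 1`. -/
theorem eq_zero_of_perp (T T' : V →ₗ[ℝ] F) {κ C ρ : ℝ} (hκ : 0 ≤ κ) (hC : 0 ≤ C)
    (hT : ∀ y, ‖y‖ ≤ κ * ‖LinearMap.adjoint T y‖)
    (hT' : ∀ y, ‖y‖ ≤ κ * ‖LinearMap.adjoint T' y‖) {δ w w' : V} (hδ : δ = w - w')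
    (hw : ∀ k, T k = 0 → ⟪k, w⟫_ℝ = 0) (hw' : ∀ k, T' k = 0 → ⟪k, w'⟫_ℝ = 0)
    (hwρ : ‖w‖ ≤ ρ) (hwρ' : ‖w'‖ ≤ ρ) (h1 : ‖T δ‖ ≤ C * ‖δ‖ ^ 2) (h2 : ‖T' δ‖ ≤ C * ‖δ‖ ^ 2)
    (hs : 2 * κ * C * ρ < 1) : δ = 0 := by
  have e1 := inner_le_of_perp T hT δ w hw
  have e2 := inner_le_of_perp T' hT' δ w' hw'
  have e3 : ‖δ‖ ^ 2 = ⟪δ, w⟫_ℝ - ⟪δ, w'⟫_ℝ := by
    rw [← inner_sub_right, ← hδ, real_inner_self_eq_norm_sq]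
  have b1 : κ * ‖T δ‖ * ‖w‖ ≤ κ * (C * ‖δ‖ ^ 2) * ρ := by gcongr
  have b2 : κ * ‖T' δ‖ * ‖w'‖ ≤ κ * (C * ‖δ‖ ^ 2) * ρ := by gcongr
  have e4 : ‖δ‖ ^ 2 ≤ (2 * κ * C * ρ) * ‖δ‖ ^ 2 := by
    have a1 := le_abs_self ⟪δ, w⟫_ℝ
    have a2 := neg_abs_le ⟪δ, w'⟫_ℝ
    nlinarith
  have e5 : ‖δ‖ ^ 2 = 0 := by
    have := sq_nonneg ‖δ‖
    nlinarith
  exact norm_eq_zero.1 (pow_eq_zero_iff (two_ne_zero) |>.1 e5)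

end Vale.Agent.P109.ST288
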